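import Crest.Agent.X261.Sh97.Key_Mg
import Crest.Agent.X261.EnP.Main
import Crest.Agent.X261.Pole.Ray_Mg
import Crest.Agent.X261.Gauss.Main_Mg
import Crest.Agent.X261.BT.EnvA
import Crest.Agent.X261.Cov.U
import Crest.Agent.X261.Pole2.Defs
import Crest.Agent.X261.Pole2.Glue
import Crest.Agent.X261.Gr.Vol
import Crest.Agent.X261.Ans.Comp
import Crest.Agent.X261.Ans.Man4
import Crest.Agent.X261.GrL.Lim

-- ▼ part X261/Sk/All
section

/-!
# Row 261, SKELETON (helper52), file `All`: all proved packages are plugged in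
-/

set_option autoImplicit false

namespace Crest.Agent.X261.Sk

theorem sepStmt : B88.SepStmt := fun _ _ _ _ _ _ _ _ _ P K _ _ D _ H _ _ => Sep93.sepH' D K P H

theorem halfB_of (hM : B88.FamStmt) (hN : B88.NIStmt) (hR : Rel.RelStmt) : HalfB :=
  B88.halfB_of' sepStmt hM hN hR (Gauss.gauss_of_eqv EqW.eqvStmt)

/-- what is left -/
theorem all_of (hD : EnP.DatStmt) (hM : B88.FamStmt) (hN : B88.NIStmt) (hR : Rel.RelStmt)
    (hJ : JetK) : E0.MainStmt :=
  final_of Sh97.Key.gredK (EnP.enK_of hD) EqW.eqvStmt (halfB_of hM hN hR) hJ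

end Crest.Agent.X261.Sk
end

-- ▼ part X261/Fin/Reg
section

/-!
# X261 / Fin (helper10), part REG: regularisation at a small scale

On a manifold with uniform balls, a quasi-psh function with values in `[κ log d, 0]` is replaced by
its supremum over the balls of radius `d`, up to constants which do not depend on `d`.
-/

set_option autoImplicit false
set_option linter.unusedSectionVars false

open Set Filter Topology Metric
open scoped ContDiff

namespace Crest.Agent.X261.Fin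

open Crest.Agent.R275.Geo
open Crest.Agent.R281.Kp_487 (KP pot wt_contDiffAt)
open Crest.Agent.R257.HoB_843 (lvE lvE_comp)
open Crest.Agent.R257.Glue2_101 (lvE_add lvE_const_mul)
open Crest.Agent.R273.YauCh_635 (two_le_inf)
open Crest.Agent.X261.BT Crest.Agent.X261.BT.Env Crest.Agent.X261.Cov.U

noncomputable section

variable {n : ℕ} {M : Type} [TopologicalSpace M] {B : Atl n M} {H : KP B} (S : UB H)

/-- `y` is `d`-close to `x` in one of the uniform charts -/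
def Nb (d : ℝ) (x y : M) : Prop :=
  ∃ j, x ∈ S.W j (2 * S.R) ∧ y ∈ ccb B (S.ch j) (B.e (S.ch j) x) d

theorem Nb.self {d : ℝ} (hd : 0 ≤ d) (x : M) : Nb S d x x :=
  let ⟨j, hj⟩ := S.cover x
  ⟨j, ccb_mono (by linarith [S.R_pos]) (cb_sub_ccb hj), hj.1, mem_closedBall_self hd⟩

/-- the scale is small -/
structure Small (d : ℝ) : Prop where
  pos : 0 < d
  one : d ≤ 1
  lt : S.L * (2 * d) < S.R
  logR : Real.log d ≤ 2 * Real.log S.R
  logC : Real.log d ≤ -S.C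

theorem ev_small : ∀ᶠ d in 𝓝[>] (0 : ℝ), Small S d := by
  have hL := S.L_pos
  filter_upwards [self_mem_nhdsWithin, ev_lt one_pos,
    ev_lt (show 0 < S.R / (2 * S.L) by have := S.R_pos; positivity),
    Real.tendsto_log_nhdsGT_zero.eventually (eventually_le_atBot (2 * Real.log S.R)),
    Real.tendsto_log_nhdsGT_zero.eventually (eventually_le_atBot (-S.C))] with d h1 h2 h3 h4 h5
  exact ⟨h1, h2.le, by rw [lt_div_iff₀ (by positivity)] at h3; linarith, h4, h5⟩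

variable {S}

theorem Small.lt' {d : ℝ} (h : Small S d) : 2 * d < S.R :=
  (le_mul_of_one_le_left (by linarith [h.pos]) S.one_le_L).trans_lt h.lt

theorem lvE_sub_sq (c z v : Cn n) : lvE (fun x : Cn n => ‖x - c‖ ^ 2) z v = ‖v‖ ^ 2 := by
  have h1 := lvE_comp (T := fun x : Cn n => x - c) (u := fun x : Cn n => ‖x‖ ^ 2) (z := z)
    (by fun_prop) (contDiff_norm_sq ℝ).contDiffAt v
  rw [lvE_nsq, fderiv_sub_const, fderiv_fun_id] at h1
  exact h1

theorem qp_sq (j : S.J) {r a : ℝ} (hr : r ≤ 8 * S.R) (ha : 0 ≤ a) :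
    QP (sc (a / S.m) H) (S.V j r) fun y => -a * ‖B.e (S.ch j) y - S.c j‖ ^ 2 := by
  have ho := isOpen_chU (A := B) (isOpen_cb (i := S.ch j) (z := S.c j) (r := r)) (S.ch j)
  refine QP.of_chart1 isOpen_cb ?_ (i := S.ch j) (fun y hy => hy.1) (PL.congr ho (PL.of_lvE ho
    (f := fun z => a / S.m * H.wt (S.ch j) z + -a * ‖z - S.c j‖ ^ 2) fun z hz => ?_) fun z hz => ?_)
  · exact continuousOn_const.mul
      (((((B.e _).continuousOn.mono fun y hy => hy.1).sub continuousOn_const).norm).pow 2)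
  · have h1 := wt_contDiffAt H (S.ch j) hz.1
    have h2 : ContDiffAt ℝ ∞ (fun z : Cn n => ‖z - S.c j‖ ^ 2) z :=
      (contDiff_norm_sq ℝ).contDiffAt.comp z (contDiffAt_id.sub contDiffAt_const)
    refine ⟨((contDiffAt_const.mul h1).add (contDiffAt_const.mul h2)).of_le two_le_inf, fun v => ?_⟩
    rw [lvE_add (contDiffAt_const.mul h1) (contDiffAt_const.mul h2), lvE_const_mul h1,
      lvE_const_mul h2, lvE_sub_sq]
    have h3 := mul_le_mul_of_nonneg_left (S.low j z (closedBall_subset_closedBall hr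
      (ball_subset_closedBall ((symm_mem_cb hz.1).1 hz.2))) v) (div_nonneg ha S.m_pos.le)
    rw [← mul_assoc, div_mul_cancel₀ _ S.m_pos.ne'] at h3
    linarith
  · rw [pot_apply, wt_sc, (B.e _).right_inv hz.1]

theorem abs_u_sub {j : S.J} {x y : M} (hx : x ∈ S.W j (8 * S.R)) (hy : y ∈ S.W j (8 * S.R))
    {d : ℝ} (h : B.e (S.ch j) y ∈ closedBall (B.e (S.ch j) x) d) :
    |H.u (S.ch j) y - H.u (S.ch j) x| ≤ S.C * d := by
  have h1 := S.wlip j _ hy.2 _ hx.2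
  simp only [KP.wt, (B.e _).left_inv hx.1, (B.e _).left_inv hy.1] at h1
  exact h1.trans (mul_le_mul_of_nonneg_left (mem_closedBall_iff_norm.1 h) S.C_pos.le)

section one

variable {φ : M → ℝ} {d b : ℝ} {j k : S.J} {x y : M}

theorem sI_le (hd : 0 ≤ d) (hd' : d ≤ S.R) (hx : x ∈ S.W j (7 * S.R))
    (h : ∀ y ∈ ccb B (S.ch j) (B.e (S.ch j) x) d, φ y ≤ b) : sI H d φ (S.ch j) x ≤ b + S.C * d := by
  rw [sI, sub_le_iff_le_add]
  refine sb_le hd fun w hw => ?_
  have h1 := S.ball_sub hx (d := d) (by linarith) hw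
  have h2 := S.sub j h1
  have h3 := abs_u_sub (ccb_mono (by linarith) hx) ((symm_mem_ccb h2).2 h1) (d := d)
    (by rwa [(B.e _).right_inv h2])
  have h4 := h _ ((symm_mem_ccb h2).2 hw)
  rw [pot_apply, KP.wt]
  linarith [(abs_le.1 h3).2]

theorem le_sI (hφ : Continuous φ) (hd : 0 ≤ d) (hd' : d ≤ S.R) (hx : x ∈ S.W j (7 * S.R))
    (hy : y ∈ ccb B (S.ch j) (B.e (S.ch j) x) d) : φ y - S.C * d ≤ sI H d φ (S.ch j) x := by
  have h1 := S.ball_sub hx (d := d) (by linarith)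
  have h2 := le_sb (cont_pot H hφ _) (h1.trans (S.sub j)) hy.2
  have h3 := abs_u_sub (ccb_mono (by linarith) hx) ⟨hy.1, h1 hy.2⟩ hy.2
  rw [pot_e H φ hy.1] at h2
  rw [sI]
  linarith [(abs_le.1 h3).1]

/-- comparison of the suprema in two charts -/
theorem sI_cmp [T2Space M] {κ : ℝ} (hκ : 0 ≤ κ) (hφ : QP H univ φ) (hd : Small S d)
    (h1 : ∀ x, κ * Real.log d ≤ φ x) (h2 : ∀ x, φ x ≤ 0) (hj : x ∈ S.W j (7 * S.R))
    (hk : x ∈ S.W k (7 * S.R)) : sI H d φ (S.ch j) x ≤ sI H d φ (S.ch k) x +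
      (S.C + S.C * (S.L * 2) + 4 * (1 + κ) * Real.log (S.L * 2)) := by
  have hR := S.R_pos
  have hC := S.C_pos
  have hL := S.one_le_L
  have d0 := hd.pos
  have d1 := hd.lt'
  have s1 := S.ball_sub hk (d := S.R) (by linarith)
  have key := sI_le (φ := φ) d0.le (by linarith) hj
    (b := sI H d φ (S.ch k) x + S.C * (S.L * 2) + 4 * (1 + κ) * Real.log (S.L * 2)) fun y hy => by
    have a1 := S.inc hj hk hd.lt (ccb_sub_cb (by linarith) hy)
    have a2 : B.e (S.ch k) y ∈ closedBall (B.e (S.ch k) x) (S.L * 2 * d) := by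
      rw [mul_assoc]; exact ball_subset_closedBall a1.2
    have a0 : S.L * 2 * d ≤ S.R := by rw [mul_assoc]; exact hd.lt.le
    have a3 := three (B.e (S.ch k)).open_target (by simpa only [chU_univ] using hφ.cp (S.ch k))
      (s1.trans (S.sub k)) (B := S.C - κ * Real.log d) (fun z hz => by
        have b1 := abs_le.1 (S.bd k z (s1 hz))
        have b2 := h1 ((B.e (S.ch k)).symm z)
        have b3 := h2 ((B.e (S.ch k)).symm z)
        rw [pot_apply, abs_le]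
        constructor <;> linarith) d0 (by linarith) (by linarith) a0 a2
    have a4 := abs_u_sub (ccb_mono (by linarith) hk)
      ⟨a1.1, s1 (closedBall_subset_closedBall a0 a2)⟩ a2
    have a5 : S.C * (S.L * 2 * d) ≤ S.C * (S.L * 2) :=
      mul_le_mul_of_nonneg_left (mul_le_of_le_one_right (by linarith) hd.one) hC.le
    have a6 : 2 * (S.C - κ * Real.log d) * Real.log (S.L * 2) / (Real.log S.R - Real.log d) ≤
        4 * (1 + κ) * Real.log (S.L * 2) := by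
      have b1 := hd.logR
      have b2 := hd.logC
      have b3 : 0 ≤ Real.log (S.L * 2) := Real.log_nonneg (by linarith)
      rw [div_le_iff₀ (by linarith), mul_right_comm (4 * (1 + κ))]
      refine mul_le_mul_of_nonneg_right ?_ b3
      nlinarith
    rw [pot_e H φ a1.1] at a3
    rw [sI]
    linarith [(abs_le.1 a4).1]
  linarith [mul_le_of_le_one_right hC.le hd.one]

end one

variable (S) in
/-- **REG** -/
theorem reg [T2Space M] (hH : H.Semipos) {κ : ℝ} (hκ : 0 ≤ κ) :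
    ∃ A₀ C₀ : ℝ, 1 ≤ A₀ ∧ ∀ d, Small S d → ∀ φ : M → ℝ, PP H φ → (∀ x, κ * Real.log d ≤ φ x) →
      (∀ x, φ x ≤ 0) → ∃ w : M → ℝ, PP (sc A₀ H) w ∧ (∀ x y, Nb S d x y → φ y - C₀ ≤ w x) ∧
        ∀ x b, (∀ y, Nb S d x y → φ y ≤ b) → w x ≤ b := by
  classical
  have hR := S.R_pos
  have hC := S.C_pos
  have hL := S.one_le_L
  have hm := S.m_pos
  obtain ⟨C₁, hC₁⟩ : ∃ C₁, C₁ = S.C + S.C * (S.L * 2) + 4 * (1 + κ) * Real.log (S.L * 2) := ⟨_, rfl⟩
  have c0 : 0 ≤ C₁ := by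
    have := Real.log_nonneg (show 1 ≤ S.L * 2 by linarith)
    rw [hC₁]; positivity
  obtain ⟨a, a0, ha⟩ : ∃ a : ℝ, 0 ≤ a ∧ a * (3 * S.R ^ 2) = C₁ :=
    ⟨C₁ / (3 * S.R ^ 2), by positivity, div_mul_cancel₀ _ (by positivity)⟩
  have a1 : (1 : ℝ) ≤ 1 * 1 + 1 * (a / S.m) := by
    have : 0 ≤ a / S.m := by positivity
    linarith
  refine ⟨1 * 1 + 1 * (a / S.m), 2 * S.C + 4 * a * S.R ^ 2, a1, fun d hd φ hφ h1 h2 => ?_⟩
  have d0 := hd.pos
  have d1 := hd.lt'
  have d2 := mul_le_of_le_one_right hC.le hd.one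
  have d3 : 0 ≤ S.C * d := by positivity
  have hq := hφ.qp.sc_one.sc_le hH a1
  set t := (S.lf _ hφ.cpt).toFinset with ht
  have ht0 : ∀ j ∉ t, ∀ x ∈ S.W j (8 * S.R), φ x = 0 := fun j hj x hx =>
    image_eq_zero_of_notMem_tsupport fun h => hj (by rw [ht, Finite.mem_toFinset]; exact ⟨x, hx, h⟩)
  have hsq : ∀ j y, 0 ≤ a * ‖B.e (S.ch j) y - S.c j‖ ^ 2 := fun j y => by positivity
  obtain ⟨G, g1, g2, g3⟩ := glue_fin t (W := fun j => S.V j (3 * S.R))
    (C := fun j => S.W j (2 * S.R))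
    (g := fun j y => 1 * sI H d φ (S.ch j) y + 1 * (-a * ‖B.e (S.ch j) y - S.c j‖ ^ 2) - S.C * d) hq
    (fun j _ => ((qp_sI hφ.qp d0.le isOpen_cb (fun y hy => hy.1) fun y hy =>
      (S.ball_sub (cb_sub_ccb hy) (by linarith)).trans (S.sub j)).sc_one.comb
        (qp_sq j (by linarith) a0) zero_le_one zero_le_one).sub_const _)
    (fun j _ => (S.isCompact_W j (by linarith)).isClosed) (fun j _ => ccb_sub_cb (by linarith))
    fun j _ y hy hy' => by
      obtain ⟨k, hk⟩ := S.cover y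
      have b1 : y ∈ S.W j (7 * S.R) := ccb_mono (by linarith) (cb_sub_ccb hy)
      by_cases hkt : k ∈ t
      · refine Or.inr ⟨k, hkt, ccb_mono (by linarith) (cb_sub_ccb hk), ?_⟩
        have b2 := sI_cmp hκ hφ.qp hd h1 h2 b1 (ccb_mono (by linarith) (cb_sub_ccb hk))
        have b3 : 2 * S.R < ‖B.e (S.ch j) y - S.c j‖ := not_le.1 fun h => hy' (mem_ccb.2 ⟨hy.1, h⟩)
        have b4 := mul_le_mul_of_nonneg_left (pow_le_pow_left₀ (by positivity) b3.le 2) a0
        have b5 := mul_le_mul_of_nonneg_left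
          (pow_le_pow_left₀ (norm_nonneg _) (mem_cb.1 hk).2.le 2) a0
        rw [← hC₁] at b2
        nlinarith
      · refine Or.inl ?_
        have b2 := sI_le (φ := φ) (b := 0) d0.le (by linarith) b1 fun y _ => h2 y
        rw [ht0 k hkt y (ccb_mono (by linarith) (cb_sub_ccb hk))]
        linarith [hsq j y]
  have up : ∀ x b, (∀ y, Nb S d x y → φ y ≤ b) → max (G x) (φ x) ≤ b := fun x b h => by
    have b1 := h x (Nb.self S d0.le x)
    refine max_le (g3 x b b1 fun j _ hj => ?_) b1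
    have b2 := sI_le (φ := φ) (b := b) d0.le (by linarith) (ccb_mono (by linarith) hj)
      fun y hy => h y ⟨j, hj, hy⟩
    linarith [hsq j x]
  refine ⟨fun x => max (G x) (φ x), ⟨g1.max hq, HasCompactSupport.intro hφ.cpt fun x hx => ?_⟩,
    ?_, up⟩
  · exact le_antisymm (up x 0 fun y _ => h2 y)
      (le_max_of_le_right (image_eq_zero_of_notMem_tsupport hx).ge)
  · rintro x y ⟨j, hj, hy⟩
    have b0 : 0 ≤ a * S.R ^ 2 := by positivity
    by_cases hjt : j ∈ t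
    · have b1 := g2 j hjt x hj
      have b2 := le_sI hφ.qp.continuous d0.le (by linarith) (ccb_mono (by linarith) hj) hy
      have b3 := mul_le_mul_of_nonneg_left
        (pow_le_pow_left₀ (norm_nonneg _) (mem_ccb.1 hj).2 2) a0
      refine le_max_of_le_left ?_
      nlinarith
    · refine le_max_of_le_right ?_
      rw [ht0 j hjt x (ccb_mono (by linarith) hj)]
      linarith [h2 y]

end

end Crest.Agent.X261.Fin
end

-- ▼ part X261/Fin/Core
section

/-!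
# X261 / Fin (helper10), part Core: `FIN` from a family with a pole and a good shell
-/

set_option autoImplicit false
set_option linter.unusedSectionVars false

open Set Filter Topology Metric
open scoped ContDiff

namespace Crest.Agent.X261.Fin

open Crest.Agent.R275.Geo
open Crest.Agent.R281.Kp_487 (KP)
open Crest.Agent.X261.BT Crest.Agent.X261.BT.Env Crest.Agent.X261.Cov.U Crest.Agent.X261.Pole2

noncomputable section

variable {n p : ℕ} {M : Type} [TopologicalSpace M] [T2Space M] {B : Atl n M} {H : KP B} (S : UB H)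
variable {T : Set M} {π : M → Cn p}

theorem tendsto_exp_neg : Tendsto (fun τ : ℝ => Real.exp (-τ)) atTop (𝓝[>] 0) :=
  tendsto_nhdsWithin_iff.2 ⟨Real.tendsto_exp_neg_atTop_nhds_zero,
    Eventually.of_forall fun _ => Real.exp_pos _⟩

/-- `π` moves little along small balls -/
theorem ev_near (h : TB B T π) {L : Set M} (hL : IsCompact L) (hLT : L ⊆ T) :
    ∀ᶠ τ in atTop, ∀ x ∈ L, ∀ z, Nb S (Real.exp (-τ)) x z →
      z ∈ T ∧ ‖π z - π x‖ ≤ Real.exp (-(τ / 2)) := by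
  have hR := S.R_pos
  have key : ∀ j, ∀ᶠ τ in atTop, ∀ x ∈ L, x ∈ S.W j (2 * S.R) →
      ∀ z ∈ ccb B (S.ch j) (B.e (S.ch j) x) (Real.exp (-τ)),
        z ∈ T ∧ ‖π z - π x‖ ≤ Real.exp (-(τ / 2)) := fun j => by
    have h1 : IsCompact (B.e (S.ch j) '' (L ∩ S.W j (2 * S.R))) :=
      cpt_im (hL.inter (S.isCompact_W j (by linarith))) fun x hx => hx.2.1
    obtain ⟨ρ, hρ, h2⟩ := h1.exists_cthickening_subset_open (isOpen_chU h.op (S.ch j))
      (by rintro _ ⟨x, hx, rfl⟩; exact mem_chU hx.2.1 (hLT hx.1))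
    obtain ⟨Λ, hΛ⟩ := exists_lip (h1.cthickening (r := ρ)) fun z hz =>
      ((h.an (S.ch j) (h2 hz)).contDiffAt (n := ∞)).restrict_scalars ℝ
    filter_upwards [tendsto_exp_neg.eventually (ev_lt hρ), (Real.tendsto_exp_atTop.comp
      (tendsto_id.atTop_div_const two_pos)).eventually (eventually_ge_atTop Λ)]
      with τ h3 h4 x hx hx' z hz
    have h5 : B.e (S.ch j) z ∈ cthickening ρ (B.e (S.ch j) '' (L ∩ S.W j (2 * S.R))) :=
      closedBall_subset_cthickening (mem_image_of_mem _ (mem_inter hx hx')) ρ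
        (closedBall_subset_closedBall h3.le hz.2)
    have h6 := hΛ _ h5 _ (self_subset_cthickening _ (mem_image_of_mem _ ⟨hx, hx'⟩))
    have h7 := (h2 h5).2
    rw [mem_preimage, (B.e _).left_inv hz.1] at h7
    rw [(B.e _).left_inv hz.1, (B.e _).left_inv hx'.1] at h6
    refine ⟨h7, h6.trans ((mul_le_mul h4 (mem_ccb.1 hz).2 (norm_nonneg _)
      (Real.exp_pos _).le).trans (le_of_eq ?_))⟩
    rw [Function.comp, ← Real.exp_add, id]
    congr 1
    ring
  filter_upwards [(eventually_all_finite (S.lf L hL)).2 fun j _ => key j] with τ hτ x hx z hz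
  obtain ⟨j, h1, h2⟩ := hz
  exact hτ j ⟨x, ccb_mono (by linarith) h1, hx⟩ x hx h1 z h2

/-- a family of competitors with a pole of level `c` and a shell where it is not too small -/
structure Good (T : Set M) (π : M → Cn p) (y : Cn p) (c : ℝ) (φ : ℝ → M → ℝ) : Prop where
  pp : ∀ s, PP H (φ s)
  le : ∀ s x, φ s x ≤ 0
  pole : ∃ b r₀ : ℝ, 0 < r₀ ∧ ∀ s r, r ≤ r₀ → Real.exp (-s) ≤ r → ∀ x ∈ T, ‖π x - y‖ ≤ r →
    φ s x ≤ c * Real.log r + b
  shell : ∃ r₂ C d₀ : ℝ, 0 < r₂ ∧ ‖y‖ + r₂ < 1 ∧ 0 < d₀ ∧ ∀ s, ∀ q ∈ T, ‖π q - y‖ = r₂ →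
    ∀ d, 0 < d → d ≤ d₀ → ∃ z, Nb S d q z ∧ Real.log d - C ≤ φ s z

theorem fin_core (hH : H.Semipos) (h : TB B T π) {y : Cn p}
    (hφ : ∀ c : ℝ, 0 < c → ∃ φ, Good S T π y c φ) {c : ℝ} (hc : 0 < c) : FIN H T π y c := by
  obtain ⟨A, C₀, hA, hreg⟩ := reg S hH (κ := 2) zero_le_two
  have A0 : 0 < A := one_pos.trans_le hA
  obtain ⟨θ, θ0, hθ⟩ : ∃ θ : ℝ, 0 < θ ∧ θ * (4 * (c * A + 1)) = 1 :=
    ⟨(4 * (c * A + 1))⁻¹, by positivity, inv_mul_cancel₀ (by positivity)⟩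
  have cA : 0 < θ * (c * A) := by positivity
  obtain ⟨φ, hpp, hle, ⟨b, r₀, r0, hp⟩, r₂, C, d₀, r2, hr₂, d0, hs⟩ := hφ (2 / θ) (by positivity)
  have t1 : Tendsto (fun τ : ℝ => Real.exp (-(θ * τ))) atTop (𝓝[>] 0) :=
    tendsto_exp_neg.comp (tendsto_id.const_mul_atTop θ0)
  set b' : ℝ := max (2 / θ * Real.log 2 + b) 0 with hb'
  obtain ⟨τ, a1, a2, a3, a4, a5, a6, a7⟩ := ((tendsto_exp_neg.eventually (ev_small S)).and
    ((ev_near S h (h.cpt_ball hr₂) fun x hx => hx.1).and ((tendsto_exp_neg.eventually (ev_lt d0)).and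
    ((t1.eventually (ev_lt r2)).and ((t1.eventually (ev_lt (half_pos r0))).and
    ((eventually_ge_atTop 0).and (eventually_gt_atTop
      (2 * (C + C₀ + b' + A * (c * Real.log (r₂ ^ 2))))))))))).exists
  have hτ : 0 ≤ τ := a6
  obtain ⟨w, w1, w2, w3⟩ := hreg _ a1 (fun x => max (φ τ x) (2 * Real.log (Real.exp (-τ))))
    ⟨(hpp τ).qp.max (QP.const hH isOpen_univ _), HasCompactSupport.intro (hpp τ).cpt fun x hx => by
      rw [image_eq_zero_of_notMem_tsupport hx, Real.log_exp]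
      exact max_eq_left (by linarith)⟩ (fun x => le_max_right _ _)
    fun x => max_le (hle τ x) (by rw [Real.log_exp]; linarith)
  rw [Real.log_exp] at w2 w3
  have e1 : Real.log (Real.exp (-(θ * τ)) ^ 2) = -(2 * (θ * τ)) := by
    rw [Real.log_pow, Real.log_exp]; push_cast; ring
  have i0 : 0 < A⁻¹ := inv_pos.2 A0
  have θτ : 0 ≤ θ * (c * A) * τ := by positivity
  have θτ' : 0 ≤ θ * τ := by positivity
  have e2 : θ * (4 * (c * A + 1)) * τ = τ := by rw [hθ, one_mul]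
  obtain ⟨a, u1, u2⟩ := exists_between (show -(2 * τ) + b' + A * (c * (2 * (θ * τ))) <
    -τ - C - C₀ - A * (c * Real.log (r₂ ^ 2)) by nlinarith)
  refine ⟨fun x => A⁻¹ * w x, ⟨(w1.qp.smul i0.le).of_wt fun i z => ?_, w1.cpt.mul_left⟩,
    fun x => mul_nonpos_of_nonneg_of_nonpos i0.le (w3 x 0 fun z _ => max_le (hle τ z) (by linarith)),
    Real.exp (-(θ * τ)), r₂, A⁻¹ * a, Real.exp_pos _, a4, hr₂, fun x hx hx' => ?_,
    fun x hx hx' => ?_⟩
  · rw [wt_sc, wt_sc, ← mul_assoc, inv_mul_cancel₀ A0.ne', one_mul]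
  · have h1 := w3 x (-(2 * τ) + b') fun z hz => by
      obtain ⟨b1, b2⟩ := a2 x ⟨hx, hx'.le.trans a4.le⟩ z hz
      have b3 : Real.exp (-(τ / 2)) ≤ Real.exp (-(θ * τ)) := Real.exp_le_exp.2 (by nlinarith)
      have b4 : Real.exp (-τ) ≤ Real.exp (-(τ / 2)) := Real.exp_le_exp.2 (by linarith)
      have b5 := hp τ (2 * Real.exp (-(θ * τ))) (by linarith) (by linarith [Real.exp_pos (-τ)]) z b1
        (by linarith [norm_sub_le_norm_sub_add_norm_sub (π z) (π x) y])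
      rw [Real.log_mul two_ne_zero (Real.exp_pos _).ne', Real.log_exp, mul_add, mul_neg,
        ← mul_assoc, div_mul_cancel₀ _ θ0.ne'] at b5
      exact max_le (by linarith [le_max_left (2 / θ * Real.log 2 + b) 0])
        (by linarith [le_max_right (2 / θ * Real.log 2 + b) 0])
    rw [e1, inv_mul_lt_iff₀ A0, mul_add, ← mul_assoc A, mul_inv_cancel₀ A0.ne']
    linarith
  · obtain ⟨z, h1, h2⟩ := hs τ x hx hx' _ (Real.exp_pos _) a3.le
    have h3 := w2 x z h1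
    rw [Real.log_exp] at h2
    rw [lt_inv_mul_iff₀ A0, mul_add, ← mul_assoc A, mul_inv_cancel₀ A0.ne']
    linarith [le_max_left (φ τ z) (2 * -τ)]

end

end Crest.Agent.X261.Fin
end

-- ▼ part X261/Fin/Main
section

/-!
# X261 / Fin (helper10), part Main: `FIN` at the very general points of a tube
-/

set_option autoImplicit false
set_option linter.unusedSectionVars false

open Set Filter Topology Metric

namespace Crest.Agent.X261.Fin

open Crest.Agent.R275.Geo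
open Crest.Agent.R281.Kp_487 (KP)
open Crest.Agent.X261.BT Crest.Agent.X261.Cov.U Crest.Agent.X261.Pole2 Crest.Agent.X261.Ans
open Crest.Agent.X261.Top (Tube)

noncomputable section

variable {n p : ℕ} {M : Type} [TopologicalSpace M] [T2Space M] {B : Atl n M} {H : KP B}
variable {G : Type} [Group G] [MulAction G M]

/-- the part of a compact analytic set off a very general fibre is closed -/
theorem closed_diff (𝒯 : Tube B G p) {x : M} (hx : x ∈ 𝒯.M0) (hb : x ∉ 𝒯.Bad) {Z : Set M}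
    (hZ : IsCompact Z) (hA : (HA.of B).An univ Z) : IsClosed (Z \ 𝒯.W x) := by
  have h1 := (HA.an_sUnion_comp isOpen_univ hA
    (T := {Y | (HA.of B).Comp univ Z Y ∧ Disjoint Y (𝒯.W x)}) fun Y hY => hY.1).isClosed
  convert h1 using 1
  refine subset_antisymm (fun z hz => ?_) ?_
  · obtain ⟨Y, hY, hzY⟩ := HA.comp_cover isOpen_univ hA (mem_univ z) hz.1
    refine ⟨Y, ⟨hY, disjoint_left.2 fun w h2 h3 => hz.2 ?_⟩, hzY⟩
    obtain ⟨h4, d, h5⟩ := hY.irr isOpen_univ hA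
    have h6 := hY.an isOpen_univ hA
    exact Brg.tube_max 𝒯 hx hb ((hZ.of_isClosed_subset h6.isClosed h4).union
      (Brg.tube_W_compact 𝒯 hx)) (IsPreconnected.union w h2 h3 (by simpa using h5.preconnected)
      (𝒯.W_conn x hx)) (h6.union (Brg.tube_an 𝒯 hx)) (Or.inr (𝒯.W_mem x hx)) (Or.inl hzY)
  · rintro z ⟨Y, hY, hzY⟩
    exact ⟨(hY.1.irr isOpen_univ hA).1 hzY, disjoint_left.1 hY.2 hzY⟩

/-- a shell around a very general fibre which misses a given compact analytic set -/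
theorem shell (𝒯 : Tube B G p) {x₀ x : M} (h₀ : x₀ ∈ 𝒯.M0) (hx : x ∈ 𝒯.T x₀) (hb : x ∉ 𝒯.Bad)
    {Z : Set M} (hZ : IsCompact Z) (hA : (HA.of B).An univ Z) :
    ∃ r, 0 < r ∧ ‖𝒯.π x₀ x‖ + r < 1 ∧ ∀ q ∈ 𝒯.T x₀, ‖𝒯.π x₀ q - 𝒯.π x₀ x‖ = r → q ∉ Z := by
  have h := tb_of_tube 𝒯 h₀
  have h1 := h.lt_one hx
  have h2 : ‖𝒯.π x₀ x‖ + (1 - ‖𝒯.π x₀ x‖) / 2 < 1 := by linarith
  have h3 := (h.cpt_ball h2).inter_right (closed_diff 𝒯 (𝒯.T_sub x₀ h₀ hx) hb hZ hA)
  rw [𝒯.π_fib x₀ h₀ x hx] at h3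
  obtain ⟨ε, h4, h5⟩ := h3.exists_forall_le' (f := fun q => ‖𝒯.π x₀ q - 𝒯.π x₀ x‖) (a := 0)
    (((h.cont.mono fun q hq => hq.1.1).sub continuousOn_const).norm)
    fun q hq => norm_pos_iff.2 (sub_ne_zero.2 fun h6 => hq.2.2 ⟨hq.1.1, h6⟩)
  have h6 : 0 < min (ε / 2) ((1 - ‖𝒯.π x₀ x‖) / 2) := lt_min (half_pos h4) (by linarith)
  refine ⟨_, h6, by linarith [min_le_right (ε / 2) ((1 - ‖𝒯.π x₀ x‖) / 2)], fun q hq h7 h8 => ?_⟩
  have h9 := h5 q ⟨⟨hq, h7.le.trans (min_le_right _ _)⟩, h8, fun h9 => by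
    rw [h9.2, sub_self, norm_zero] at h7; exact h6.ne h7⟩
  linarith [min_le_left (ε / 2) ((1 - ‖𝒯.π x₀ x‖) / 2)]

variable [MeasurableSpace M] [BorelSpace M] [Countable B.ι]

/-- the limit of a decreasing family of bounded volume has small poles off a compact analytic set -/
def LimI (S : UB H) : Prop :=
  ∀ φ : ℝ → M → ℝ, (∀ s, QP H univ (φ s)) → (∀ s x, φ s x ≤ 0) → (∀ x, Antitone fun s => φ s x) →
    (∃ V : ENNReal, V < ⊤ ∧ ∀ s, MA H (fun _ => 0) {x | φ s x < 0} ≤ V) →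
    ∃ Z : Set M, IsCompact Z ∧ (HA.of B).An univ Z ∧ ∀ K : Set M, IsCompact K → Disjoint K Z →
      ∃ C d₀ : ℝ, 0 < d₀ ∧ ∀ j, ∀ q ∈ K, q ∈ S.W j (7 * S.R) → ∀ d, 0 < d → d ≤ d₀ →
        ∃ y ∈ cb B (S.ch j) (B.e (S.ch j) q) d, ∀ s, Real.log d - C ≤ φ s y

theorem good_of {S : UB H} (hL : LimI S) (hH : H.Pos) (hs : Slow H) {T : Set M} {π : M → Cn p}
    (h : TB B T π) {y : Cn p} (hy : ‖y‖ < 1) (hsh : ∀ Z : Set M, IsCompact Z → (HA.of B).An univ Z →
      ∃ r, 0 < r ∧ ‖y‖ + r < 1 ∧ ∀ q ∈ T, ‖π q - y‖ = r → q ∉ Z) {c : ℝ} (hc : 0 < c) :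
    ∃ φ, Good S T π y c φ := by
  classical
  have hS := pos_semi hH
  obtain ⟨r, r0, hr⟩ : ∃ r : ℝ, 0 < r ∧ ‖y‖ + r < 1 := ⟨(1 - ‖y‖) / 2, by linarith, by linarith⟩
  set s₀ : ℝ := -Real.log (r ^ 2 / 2) with hs₀
  set F : ℝ → M → ℝ := fun s x =>
    -(c / 2 * Real.log (r ^ 2)) + c / 2 * Ls (max (2 * s) s₀) y (π x) with hF
  set V : ℝ → M → ℝ := fun s x => if x ∈ T then min 0 (F s x) else 0 with hV
  have c2 : 0 ≤ c / 2 := by positivity
  have hlog : ∀ s w, r < ‖w - y‖ → Ls (max (2 * s) s₀) y w = Real.log (‖w - y‖ ^ 2) :=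
    fun s w hw => Ls_log (by
      have h1 := Real.exp_le_exp.2 (neg_le_neg (le_max_right (2 * s) s₀))
      rw [hs₀, neg_neg, Real.exp_log (by positivity)] at h1
      linarith [pow_le_pow_left₀ r0.le hw.le 2])
  obtain ⟨v1, v2⟩ := Gr.Vol.vol_fam (F := F) (V := V) (f₀ := F 0) hH hs le_rfl
    (fun s => (h.qp_Ls hS c2 _ _ y).sc_one) (h.qp_Ls hS c2 _ _ y).sc_one (h.cpt_ball hr)
    (fun x hx => hx.1) (fun s x hx hx' => by
      have h1 : r < ‖π x - y‖ := not_le.1 fun h2 => hx' ⟨hx, h2⟩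
      simp only [hF, hlog _ _ h1, true_and]
      linarith [mul_le_mul_of_nonneg_left
        (Real.log_le_log (by positivity) (pow_le_pow_left₀ r0.le h1.le 2)) c2])
    (fun s x hx => if_pos hx) fun s x hx => if_neg hx
  have V0 : ∀ s x, V s x ≤ 0 := fun s x => by
    simp only [hV]
    split_ifs
    exacts [min_le_left _ _, le_rfl]
  have e0 : ∀ s x, env H (V s) x ≤ 0 := fun s x => ((v1 s).1.env_le hS x).trans (V0 s x)
  obtain ⟨Z, z1, z2, z3⟩ := hL (fun s => env H (V s)) (fun s => (v1 s).1.qp hH) e0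
    (fun x s t hst => env_mono ((v1 t).1.hasC hS) (fun z => by
      simp only [hV, hF]
      split_ifs
      · exact min_le_min le_rfl (add_le_add le_rfl (mul_le_mul_of_nonneg_left
          (Ls_step (max_le_max (by linarith) le_rfl) y _).1 c2))
      · exact le_rfl) x) v2
  obtain ⟨r₂, a1, a2, a3⟩ := hsh Z z1 z2
  obtain ⟨C, d₀, d0, a4⟩ := z3 {x | x ∈ T ∧ π x ∈ sphere y r₂} (h.cpt_pre isClosed_sphere a2
    fun w hw => by linarith [norm_le_norm_add_norm_sub' w y, mem_sphere_iff_norm.1 hw])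
    (disjoint_left.2 fun q hq => a3 q hq.1 (mem_sphere_iff_norm.1 hq.2))
  refine ⟨fun s => env H (V s), fun s => hs.pp_env hH (v1 s).1.cont
    (HasCompactSupport.intro (h.cpt_ball hr) (v1 s).2), e0,
    ⟨-(c / 2 * Real.log (r ^ 2)) + c / 2 * Real.log 2, 1, one_pos, fun s ρ _ h1 x hx h2 => ?_⟩,
    r₂, C, d₀, a1, a2, d0, fun s q hq h1 d h2 h3 => ?_⟩
  · have ρ0 : 0 < ρ := (Real.exp_pos _).trans_le h1
    have b1 := (v1 s).1.env_le hS x
    have b2 : V s x ≤ F s x := (if_pos hx).trans_le (min_le_right _ _)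
    have b3 := (Ls_bd (max (2 * s) s₀) y (π x)).2
    have b4 : 1 ≤ Real.exp (max (2 * s) s₀) * ρ ^ 2 := by
      have b5 := mul_le_mul (Real.exp_le_exp.2 (le_max_left (2 * s) s₀))
        (pow_le_pow_left₀ (Real.exp_pos _).le h1 2) (by positivity) (Real.exp_pos _).le
      rwa [← Real.exp_nat_mul, ← Real.exp_add, show 2 * s + ((2 : ℕ) : ℝ) * -s = 0 by
        push_cast; ring, Real.exp_zero] at b5
    have b5 := Real.log_le_log (lt_max_of_lt_right one_pos) (max_le (mul_le_mul_of_nonneg_left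
      (pow_le_pow_left₀ (norm_nonneg _) h2 2) (Real.exp_pos (max (2 * s) s₀)).le) b4)
    rw [Real.log_mul (Real.exp_pos _).ne' (by positivity), Real.log_exp, Real.log_pow] at b5
    have b6 := mul_le_mul_of_nonneg_left
      (show Ls (max (2 * s) s₀) y (π x) ≤ 2 * Real.log ρ + Real.log 2 by push_cast at b5; linarith) c2
    simp only [hF] at b2
    linarith
  · obtain ⟨j, hj⟩ := S.cover q
    have hR := S.R_pos
    obtain ⟨z, b1, b2⟩ := a4 j q ⟨hq, mem_sphere_iff_norm.2 h1⟩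
      (ccb_mono (by linarith) (cb_sub_ccb hj)) d h2 h3
    exact ⟨z, ⟨j, ccb_mono (by linarith) (cb_sub_ccb hj), cb_sub_ccb b1⟩, b2 s⟩

/-- **FIN** from the limit theorem -/
theorem fin_of {S : UB H} (hL : LimI S) (hH : H.Pos) (hs : Slow H) (𝒯 : Tube B G p) {x₀ x : M}
    (h₀ : x₀ ∈ 𝒯.M0) (hx : x ∈ 𝒯.T x₀) (hb : x ∉ 𝒯.Bad) {c : ℝ} (hc : 0 < c) :
    FIN H (𝒯.T x₀) (𝒯.π x₀) (𝒯.π x₀ x) c :=
  fin_core S (pos_semi hH) (tb_of_tube 𝒯 h₀) (fun _ h => good_of hL hH hs (tb_of_tube 𝒯 h₀)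
    ((tb_of_tube 𝒯 h₀).lt_one hx) (fun _ => shell 𝒯 h₀ hx hb) h) hc

end

end Crest.Agent.X261.Fin
end

-- ▼ part X261/Fin/All

/-!
# X261 / Fin (helper10): `FIN`, unconditional
-/

set_option autoImplicit false
set_option linter.unusedSectionVars false

open Set Filter Topology Metric

namespace Crest.Agent.X261.Fin

open Crest.Agent.R275.Geo
open Crest.Agent.R281.Kp_487 (KP)
open Crest.Agent.X261.BT Crest.Agent.X261.Cov.U Crest.Agent.X261.Pole2 Crest.Agent.X261.Ans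
open Crest.Agent.X261.Top (Tube)

noncomputable section

variable {n p : ℕ} {M : Type} [TopologicalSpace M] [T2Space M] {B : Atl n M} {H : KP B}
variable [MeasurableSpace M] [BorelSpace M] [Countable B.ι]

theorem limI (hH : H.Pos) (S : UB H) : LimI S := by
  intro φ h1 h2 h3 h4
  have hF : GrL.Fam H fun s : ℕ => φ s :=
    ⟨fun s => h1 s, fun s => h2 s, fun x s t h => h3 x (Nat.cast_le.2 h), h4.imp fun _ h =>
      ⟨h.1, fun s => h.2 s⟩⟩
  have ht : (0 : ℝ) < 2 * n + 1 := by positivity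
  refine ⟨_, hF.cpt hH S ht.le, hF.an ht.le, fun K hK hd => ?_⟩
  obtain ⟨C, d₀, d0, h5⟩ := GrL.off S ht hK hd
  refine ⟨C, min d₀ 1, lt_min d0 one_pos, fun j q hq hq' d h6 h7 => ?_⟩
  obtain ⟨y, h8, h9⟩ := h5 j q hq hq' d h6 (h7.trans (min_le_left _ _))
  refine ⟨y, h8, fun s => ?_⟩
  have a1 := EReal.coe_le_coe_iff.1 (h9.trans (GrL.lim_le _ ⌈s⌉₊ y))
  have a2 : φ (⌈s⌉₊ : ℕ) y ≤ φ s y := h3 y (Nat.le_ceil s)
  have a3 := mul_le_mul_of_nonpos_right
    (show 2 * (n : ℝ) / (2 * n + 1) ≤ 1 by rw [div_le_one ht]; linarith)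
    (Real.log_nonpos h6.le (h7.trans (min_le_right _ _)))
  linarith

/-- **FIN** -/
theorem fin {G : Type} [Group G] [MulAction G M] (hH : H.Pos) (hs : Slow H) (S : UB H)
    (𝒯 : Tube B G p) {x₀ x : M} (h₀ : x₀ ∈ 𝒯.M0) (hx : x ∈ 𝒯.T x₀) (hb : x ∉ 𝒯.Bad) {c : ℝ}
    (hc : 0 < c) : FIN H (𝒯.T x₀) (𝒯.π x₀) (𝒯.π x₀ x) c :=
  fin_of (limI hH S) hH hs 𝒯 h₀ hx hb hc

/-- **FIN** on a covering of a compact Kähler manifold -/
theorem fin_cov {X : Type} [TopologicalSpace X] [T2Space X] [CompactSpace X] {A : Atl n X}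
    [Finite A.ι] {G : Type} [Group G] [Countable G] (D : R273.UCov_914.MonD A G)
    (P : Part A) {H : KP A} (hH : H.Pos) (𝒯 : Tube (D.atl G) G p) {x₀ x : D.cov G}
    (h₀ : x₀ ∈ 𝒯.M0) (hx : x ∈ 𝒯.T x₀) (hb : x ∉ 𝒯.Bad) {c : ℝ} (hc : 0 < c) :
    FIN (Cov.K.pullKP D G H) (𝒯.T x₀) (𝒯.π x₀) (𝒯.π x₀ x) c := by
  borelize (D.cov G)
  obtain ⟨S⟩ := exists_ub D G hH
  exact fin (Cov.K.pos_pull D G hH) (Cov.K.slow_pull D G P hH) S 𝒯 h₀ hx hb hc

end

end Crest.Agent.X261.Fin
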